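import Vale.Agent.P253Y.Big.Sk

/-!
# P253Y, block BIG: an algebraic holomorphic function that clears the poles
-/

open scoped Manifold ContDiff Bundle ENNReal Topology
open Bundle IsManifold MeasureTheory Set Metric Filter Vale.Agent.P253.Mfd
open Vale.Agent.P272.K (Cm Chart jacM)
open Vale.Agent.P253Z Vale.Agent.P253Z.T2

set_option linter.unusedSectionVars false

noncomputable section

namespace Vale.Agent.P253Y.Big

open VS (ev)

namespace AlgA

variable {n k : ℕ}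

/-- a polynomial in `n + 1` variables -/
def P (v : (Fin n → Fin k) × Fin k → ℂ) (y₀ : ℂ) (y : Fin n → ℂ) : ℂ :=
  ∑ q, v q * ((∏ i, y i ^ (q.1 i : ℕ) * y₀ ^ (k - q.1 i)) * y₀ ^ (q.2 : ℕ))

theorem P_bound (v : (Fin n → Fin k) × Fin k → ℂ) {y₀ : ℂ} {y : Fin n → ℂ} {B : ℝ} (hB : 1 ≤ B)
    (h0 : ‖y₀‖ ≤ B) (h : ∀ i, ‖y i‖ ≤ B) : ‖P v y₀ y‖ ≤ (∑ q, ‖v q‖) * B ^ ((n + 1) * k) := by
  have B0 : 0 ≤ B := zero_le_one.trans hB
  rw [P, Finset.sum_mul]
  refine (norm_sum_le _ _).trans (Finset.sum_le_sum fun q _ => ?_)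
  rw [norm_mul, norm_mul, norm_prod, norm_pow]
  refine mul_le_mul_of_nonneg_left ?_ (norm_nonneg _)
  have h1 : ∏ i, ‖y i ^ (q.1 i : ℕ) * y₀ ^ (k - q.1 i)‖ ≤ ∏ _i : Fin n, B ^ k := by
    refine Finset.prod_le_prod (fun _ _ => norm_nonneg _) fun i _ => ?_
    rw [norm_mul, norm_pow, norm_pow]
    calc _ ≤ B ^ (q.1 i : ℕ) * B ^ (k - q.1 i) := by gcongr; exact h i
      _ = _ := by rw [← pow_add, Nat.add_sub_cancel' (q.1 i).2.le]
  have h2 : ‖y₀‖ ^ (q.2 : ℕ) ≤ B ^ k :=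
    (pow_le_pow_left₀ (norm_nonneg _) h0 _).trans (pow_le_pow_right₀ hB q.2.2.le)
  rw [Finset.prod_const, Finset.card_univ, Fintype.card_fin, ← pow_mul] at h1
  rw [add_mul, one_mul, pow_add, mul_comm n k]
  exact mul_le_mul h1 h2 (by positivity) (by positivity)

theorem P_lim (v : (Fin n → Fin k) × Fin k → ℂ) {U : Filter ℕ} {t₀ : ℕ → ℂ} {t : Fin n → ℕ → ℂ}
    {y₀ : ℂ} {y : Fin n → ℂ} (h0 : Tendsto t₀ U (𝓝 y₀)) (h : ∀ i, Tendsto (t i) U (𝓝 (y i))) :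
    Tendsto (fun ν => P v (t₀ ν) fun i => t i ν) U (𝓝 (P v y₀ y)) :=
  tendsto_finsetSum _ fun _ _ => ((tendsto_finsetProd _ fun i _ =>
    ((h i).pow _).mul (h0.pow _)).mul (h0.pow _)).const_mul _

theorem exists_R {v : (Fin n → Fin k) × Fin k → ℂ} (hv : v ≠ 0) :
    ∃ R : Polynomial (Pz n), R ≠ 0 ∧ ∀ z t, ev R z t = P v t fun i => z i * t := by
  classical
  obtain ⟨q₀, hq₀⟩ := Function.ne_iff.1 hv
  let F : (Fin n → Fin k) → (Fin n →₀ ℕ) := fun α =>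
    Finsupp.equivFunOnFinite.symm fun i => (α i : ℕ)
  have hF : Function.Injective F := fun α β hαβ => funext fun i =>
    Fin.ext (congrFun (Finsupp.equivFunOnFinite.symm.injective hαβ) i)
  refine ⟨∑ q, Polynomial.monomial (n * k + q.2) (MvPolynomial.monomial (F q.1) (v q)),
    fun h0 => ?_, fun z t => ?_⟩
  · have h1 := congrArg (fun Q : Polynomial (Pz n) =>
      (Q.coeff (n * k + q₀.2)).coeff (F q₀.1)) h0
    simp only [Polynomial.finsetSum_coeff, MvPolynomial.coeff_sum, Polynomial.coeff_zero,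
      MvPolynomial.coeff_zero] at h1
    rw [Finset.sum_eq_single q₀] at h1
    · exact hq₀ (by simpa using h1)
    · intro q _ hq
      rw [Polynomial.coeff_monomial]
      split_ifs with h2
      · rw [MvPolynomial.coeff_monomial, if_neg]
        intro h3
        exact hq (Prod.ext (hF h3) (Fin.ext (Nat.add_left_cancel h2)))
      · rfl
    · simp
  · rw [ev, P, Polynomial.map_sum, Polynomial.eval_finsetSum]
    refine Finset.sum_congr rfl fun q _ => ?_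
    rw [Polynomial.map_monomial, Polynomial.eval_monomial, MvPolynomial.eval_monomial,
      Finsupp.prod_fintype _ _ (fun i => pow_zero _)]
    have h3 : ∏ i, (z i * t) ^ (q.1 i : ℕ) * t ^ (k - q.1 i) =
        (∏ i, z i ^ (F q.1 i)) * ∏ _i : Fin n, t ^ k := by
      rw [← Finset.prod_mul_distrib]
      refine Finset.prod_congr rfl fun i _ => ?_
      rw [mul_pow, mul_assoc, ← pow_add, Nat.add_sub_cancel' (q.1 i).2.le]
      rfl
    rw [h3, Finset.prod_const, Finset.card_univ, Fintype.card_fin, ← pow_mul, pow_add,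
      mul_comm n k]
    ring

theorem ub (C₀ : ℝ) (C : Fin n → ℝ) : ∃ D : ℝ, 1 ≤ D ∧ C₀ ≤ D ∧ ∀ i, C i ≤ D := by
  obtain ⟨b, hb⟩ := (Set.finite_range C).bddAbove
  exact ⟨max 1 (max C₀ b), le_max_left _ _, (le_max_left _ _).trans (le_max_right _ _),
    fun i => (hb ⟨i, rfl⟩).trans ((le_max_right _ _).trans (le_max_right _ _))⟩

variable {M : Type} [MetricSpace M] [ChartedSpace (Cm n) M]

theorem co_zero (g : M → ℂ) (e : Chart n M) : co 0 g e = fun z => g (e.symm z) := by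
  funext z
  simp [co]

theorem P_sec (v : (Fin n → Fin k) × Fin k → ℂ) {g₀ : M → ℂ} {g : Fin n → M → ℂ}
    (h0 : IsSec n 0 g₀) (h : ∀ i, IsSec n 0 (g i)) :
    IsSec n 0 fun x => P v (g₀ x) fun i => g i x := by
  intro e he z hz
  have h1 := h0 e he z hz
  have h2 := fun i => h i e he z hz
  simp only [co_zero] at h1 h2 ⊢
  unfold P
  refine Finset.analyticAt_fun_sum _ fun q _ => analyticAt_const.mul (AnalyticAt.mul ?_ (h1.pow _))
  exact Finset.analyticAt_fun_prod _ fun i _ => ((h2 i).pow _).mul (h1.pow _)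

theorem pt {p : M} {t : ℕ → M → ℂ} {g : M → ℂ} {U : Filter ℕ}
    (h : ∀ r, TendstoUniformlyOn t g U (closedBall p r)) (x : M) :
    Tendsto (fun ν => t ν x) U (𝓝 (g x)) :=
  (h (dist x p)).tendsto_at (mem_closedBall.2 le_rfl)

variable [RiemannianBundle (fun x : M => TangentSpace 𝓘(ℝ, Cm n) x)] [MeasurableSpace M]
  {μ : Measure M} {p : M} (F : Fr n μ p) {m : ℕ}

theorem sec (a : B1a n M) {σ : M → ℂ} (hσ : IsSec n (-m) σ) (ν : ℕ) :
    IsSec n 0 fun x => σ x * F.Ω ν x ^ m := by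
  have hΩ : ∀ i : ℕ, IsSec n i (F.Ω ν ^ i) := fun i => by
    induction i with
    | zero => exact (a.sec_zero _).2 mdifferentiable_const
    | succ i ih => exact_mod_cast pow_succ (F.Ω ν) i ▸ a.sec_mul _ _ _ _ ih (F.sec ν)
  exact (neg_add_cancel (m : ℤ) ▸ a.sec_mul _ _ _ _ hσ (hΩ m) : IsSec n 0 (σ * F.Ω ν ^ m))

theorem lim_ne (a : B1a n M) {σ g : M → ℂ} (hσ : IsSec n (-m) σ) (hne : σ ≠ 0) {U : Filter ℕ}
    [U.NeBot] (h : ∀ x, Tendsto (fun ν => σ x * F.Ω ν x ^ m) U (𝓝 (g x))) : g ≠ 0 := by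
  have hp := F.e.open_source.mem_nhds F.src
  have hc := F.e.continuousAt F.src
  rw [ContinuousAt, F.ep] at hc
  have hj : ∀ z ∈ F.e.target, (jacM F.e (chartAt (Cm n) (F.e.symm z)) (F.e.symm z)).det ≠ 0 :=
    fun z hz => a.jac_ne _ _ F.he (a.chart _) _ (F.e.map_target hz) (mem_chart_source _ _)
  obtain ⟨z, hz₁, hz⟩ : ∃ z ∈ closedBall (0 : Cm n) F.δ, co (-m) σ F.e z ≠ 0 := by
    by_contra hn
    refine hne (a.ident _ σ hσ p ?_)
    filter_upwards [hp, hc.eventually (closedBall_mem_nhds 0 F.δ_pos)] with y h1 h2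
    rw [← F.e.left_inv h1]
    exact (mul_eq_zero.1 (not_not.1 fun h3 => hn ⟨_, h2, h3⟩)).resolve_left
      (zpow_ne_zero _ (hj _ (F.e.map_source h1)))
  have h4 : ‖co (-m) σ F.e z‖ * (1 / 2) ^ m ≤ ‖g (F.e.symm z)‖ := by
    refine ge_of_tendsto' (h _).norm fun ν => ?_
    have e : σ (F.e.symm z) * F.Ω ν (F.e.symm z) ^ m =
        co (-m) σ F.e z * co 1 (F.Ω ν) F.e z ^ m := by
      have := hj z (F.sub hz₁)
      simp only [co, zpow_neg, zpow_natCast, zpow_one, mul_pow]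
      field_simp
    rw [e, norm_mul, norm_pow]
    gcongr
    exact F.low ν z hz₁
  intro h5
  rw [h5, Pi.zero_apply, norm_zero] at h4
  exact h4.not_gt (mul_pos (norm_pos_iff.2 hz) (by positivity))

theorem gauge (hA : ∀ ν, 0 ≤ F.A ν) (hm : 1 ≤ m) {s₀ : M → ℂ} {s : Fin n → M → ℂ}
    (h₀ : InH n μ m s₀) (hs : ∀ i, InH n μ m (s i)) (v : (Fin n → Fin k) × Fin k → ℂ) :
    ∃ C : ℝ, ∀ ν x, ‖P v (s₀ x * F.Ω ν x ^ m) fun i => s i x * F.Ω ν x ^ m‖ ≤
      Real.exp (C + F.C₂ * (m * ((n + 1) * k) : ℕ) * (F.A ν + tl p (F.R ν) x)) := by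
  obtain ⟨C₀, b₀⟩ := F.l2 m hm s₀ h₀
  choose C b using fun i => F.l2 m hm _ (hs i)
  obtain ⟨D, d1, d2, d3⟩ := ub C₀ C
  refine ⟨(∑ q, ‖v q‖) + ((n + 1) * k : ℕ) * D, fun ν x => ?_⟩
  have X0 : 0 ≤ F.C₂ * m * (F.A ν + tl p (F.R ν) x) :=
    mul_nonneg (mul_nonneg F.C₂_pos.le m.cast_nonneg) (add_nonneg (hA ν) (le_max_right _ _))
  refine (P_bound v (B := Real.exp (D + F.C₂ * m * (F.A ν + tl p (F.R ν) x)))
    (Real.one_le_exp (by linarith)) ((b₀ ν x).trans (Real.exp_le_exp.2 (by linarith)))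
    fun i => (b i ν x).trans (Real.exp_le_exp.2 (by linarith [d3 i]))).trans ?_
  rw [← Real.exp_nat_mul, add_assoc, Real.exp_add]
  refine mul_le_mul (by linarith [Real.add_one_le_exp (∑ q, ‖v q‖)]) (le_of_eq ?_)
    (Real.exp_pos _).le (Real.exp_pos _).le
  congr 1
  push_cast
  ring

/-- counting of jets -/
theorem dep (j : JET) {c : ℕ} (hk : c ^ n < k) {f₀ : M → ℂ} {f : Fin n → M → ℂ}
    (sf₀ : IsSec n 0 f₀) (sf : ∀ i, IsSec n 0 (f i))
    (h : ∀ v : (Fin n → Fin k) × Fin k → ℂ,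
      ((fun z => P v (f₀ (F.e.symm z)) fun i => f i (F.e.symm z)) =O[𝓝 0]
        fun z => ‖z‖ ^ (c * k)) → ∀ x, (P v (f₀ x) fun i => f i x) = 0) :
    ∃ v : (Fin n → Fin k) × Fin k → ℂ, v ≠ 0 ∧ ∀ x, (P v (f₀ x) fun i => f i x) = 0 := by
  by_contra hn
  let T : ((Fin n → Fin k) × Fin k → ℂ) →ₗ[ℂ] (Cm n → ℂ) :=
    { toFun := fun v z => P v (f₀ (F.e.symm z)) fun i => f i (F.e.symm z)
      map_add' := fun v w => funext fun z => by
        simp only [P, Pi.add_apply, add_mul, Finset.sum_add_distrib]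
      map_smul' := fun c v => funext fun z => by
        simp only [P, Pi.smul_apply, smul_eq_mul, RingHom.id_apply, Finset.mul_sum, mul_assoc] }
  have z0 : (0 : Cm n) ∈ F.e.target := F.sub (mem_closedBall_self F.δ_pos.le)
  have h4 := (j n (c * k) _ T (fun v => by
    have := P_sec v sf₀ sf F.e F.he 0 z0
    rwa [co_zero] at this) fun v hO => by_contra fun hv => hn ⟨v, hv, h v hO⟩).2
  rw [Module.finrank_fintype_fun_eq_card, Fintype.card_prod, Fintype.card_fun,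
    Fintype.card_fin, Fintype.card_fin, mul_pow, mul_comm] at h4
  exact hk.not_ge (Nat.le_of_mul_le_mul_right h4 (pow_pos (Nat.zero_lt_of_lt hk) n))

end AlgA

open AlgA

variable {n : ℕ} {M : Type} [MetricSpace M] [ChartedSpace (Cm n) M]
  [IsManifold 𝓘(ℂ, Cm n) 1 M] [IsManifold 𝓘(ℝ, Cm n) ∞ M]
  [RiemannianBundle (fun x : M => TangentSpace 𝓘(ℝ, Cm n) x)]
  [IsContMDiffRiemannianBundle 𝓘(ℝ, Cm n) ∞ (Cm n) (fun x : M => TangentSpace 𝓘(ℝ, Cm n) x)]
  [IsRiemannianManifold 𝓘(ℝ, Cm n) M] [CompleteSpace M] [ConnectedSpace M] [NoncompactSpace M]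
  [MeasurableSpace M] [BorelSpace M] {μ : Measure M}

theorem alg (a : B1a n M) (j : JET) (h1 : FR3 n μ) (h2 : LIM n M) (h3 : ORF n μ) : ALG n μ := by
  intro m s₀ s hm h₀ hs hne
  obtain ⟨p⟩ : Nonempty M := inferInstance
  obtain ⟨F, hA, hB⟩ := h1 p
  obtain ⟨C₃, hC⟩ := h3 p F
  obtain ⟨f₀, sf₀, l₀⟩ := h2 p _ (hyperfilter ℕ) (sec F a h₀.1) (hB m hm s₀ h₀)
  choose f sf l using fun i => h2 p _ (hyperfilter ℕ) (sec F a (hs i).1) (hB m hm _ (hs i))
  have hrel : ∀ i x, f i x * s₀ x = s i x * f₀ x := fun i x =>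
    tendsto_nhds_unique ((pt (l i) x).mul_const (s₀ x))
      (((pt l₀ x).const_mul (s i x)).congr fun ν => by ring)
  obtain ⟨k, hk⟩ : ∃ k, (C₃ * (m * (n + 1))) ^ n < k := ⟨_, Nat.lt_succ_self _⟩
  obtain ⟨v, hv, hP⟩ := dep F j hk sf₀ sf fun v hO => by
    have st := fun ν => P_sec v (sec F a h₀.1 ν) fun i => sec F a (hs i).1 ν
    obtain ⟨g, -, lg⟩ := h2 p _ (hyperfilter ℕ) st fun r => by
      obtain ⟨C₀, b₀⟩ := hB m hm s₀ h₀ r
      choose C b using fun i => hB m hm _ (hs i) r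
      obtain ⟨D, d1, d2, d3⟩ := ub C₀ C
      exact ⟨_, fun ν x hx =>
        P_bound v d1 ((b₀ ν x hx).trans d2) fun i => (b i ν x hx).trans (d3 i)⟩
    have eg : g = fun x => P v (f₀ x) fun i => f i x := funext fun x =>
      tendsto_nhds_unique (pt lg x) (P_lim v (pt l₀ x) fun i => pt (l i) x)
    rw [eg] at lg
    rw [mul_assoc, mul_assoc] at hO
    exact congrFun (hC (m * ((n + 1) * k))
      (Nat.mul_pos hm (Nat.mul_pos n.succ_pos (Nat.zero_lt_of_lt hk))) _ _ _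
      Nat.hyperfilter_le_atTop st (P_sec v sf₀ sf) (lg 2) (gauge F hA hm h₀ hs v) hO)
  obtain ⟨R, hR, hev⟩ := exists_R hv
  refine ⟨f₀, f, R, sf₀, sf, lim_ne F a h₀.1 hne (pt l₀), hrel, hR, fun x hx => ?_⟩
  refine (hev _ _).trans ((congrArg (P v (f₀ x)) (funext fun i => ?_)).trans (hP x))
  rw [Phi, div_mul_eq_mul_div, ← hrel, mul_div_cancel_right₀ _ hx]

end Vale.Agent.P253Y.Big
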