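import Vale.Agent.P253Y.Big.Sk

/-!
# P253Y, block BIG: the entire elements of the field have the full transcendence degree
-/

open scoped Manifold ContDiff Bundle ENNReal Topology
open Bundle IsManifold MeasureTheory Set Metric Filter Vale.Agent.P253.Mfd
open Vale.Agent.P272.K (Cm Chart)
open Vale.Agent.P253Z Vale.Agent.P253Z.T2

noncomputable section

namespace Vale.Agent.P253Y.Big

open VS (ev)

variable {n : ℕ} {M : Type} [MetricSpace M] [ChartedSpace (Cm n) M]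

namespace Bk

variable {T : ℕ → Submodule ℂ (M → ℂ)} {K : Type} [Field K] [Algebra ℂ K]

theorem val_cont (a : B1a n M) (ff : FF n T K) {x : M} {f : K} (hf : f ∈ ff.O x) :
    ContinuousAt (ff.val f) x := by
  have hx := mem_chart_source (Cm n) x
  have h1 := (ff.hol x f hf _ (a.chart x) hx).continuousAt.comp
    ((chartAt (Cm n) x).continuousAt hx)
  refine h1.congr ?_
  filter_upwards [(chartAt (Cm n) x).open_source.mem_nhds hx] with y hy
  simp only [Function.comp, (chartAt (Cm n) x).left_inv hy]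

/-- an element with holomorphic values off the zeros of a section is holomorphic everywhere -/
theorem mem_all (a : B1a n M) (ff : FF n T K) {k : ℤ} {s g : M → ℂ} (hs : IsSec n k s)
    (h0 : s ≠ 0) (hg : IsSec n 0 g) {f : K} (h : ∀ y, s y ≠ 0 → ff.val f y = g y) (x : M) :
    f ∈ ff.O x := by
  have hc : Continuous g := ((a.sec_zero g).1 hg).continuous
  refine ff.bdd x f (‖g x‖ + 1) ?_
  filter_upwards [hc.norm.continuousAt.eventually_lt continuousAt_const
    (lt_add_one ‖g x‖)] with y hy hf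
  have h1 : ∃ᶠ w in 𝓝 y, ff.val f w = g w := by
    have : ¬ ∀ᶠ w in 𝓝 y, s w = 0 := fun e => h0 (a.ident k s hs y e)
    exact (not_eventually.1 this).mono h
  rw [tendsto_nhds_unique_of_frequently_eq (val_cont a ff hf) hc.continuousAt h1]
  exact hy.le

theorem val_aeval (ff : FF n T K) {z : Fin n → K} {y : M} {ζ : Cm n}
    (h : ∀ i, z i ∈ ff.O y ∧ ff.val (z i) y = ζ i) (P : Pz n) :
    MvPolynomial.aeval z P ∈ ff.O y ∧
      ff.val (MvPolynomial.aeval z P) y = MvPolynomial.eval ζ P := by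
  induction P using MvPolynomial.induction_on with
  | C c =>
    rw [MvPolynomial.aeval_C, MvPolynomial.eval_C]
    exact ⟨Subalgebra.algebraMap_mem _ c, ff.val_const y c⟩
  | add P Q h1 h2 =>
    rw [map_add, map_add]
    exact ⟨add_mem h1.1 h2.1, by rw [ff.val_add y _ h1.1 _ h2.1, h1.2, h2.2]⟩
  | mul_X P i h1 =>
    rw [map_mul, map_mul, MvPolynomial.aeval_X, MvPolynomial.eval_X]
    exact ⟨mul_mem h1.1 (h i).1, by rw [ff.val_mul y _ h1.1 _ (h i).1, h1.2, (h i).2]⟩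

theorem val_zero (ff : FF n T K) (y : M) : ff.val 0 y = 0 := by
  simpa using ff.val_const y 0

theorem exists_root {P : Polynomial (Pz n)} (hP : P.Monic) {ζ₀ : Cm n} {t₀ : ℂ}
    (h : ev P ζ₀ t₀ = 0) (ζ : Cm n) : ∃ t, ev P ζ t = 0 := by
  refine IsAlgClosed.exists_root (P.map (MvPolynomial.eval ζ)) ?_
  rw [hP.degree_map]
  intro e
  rw [hP.degree_le_zero_iff_eq_one.1 e.le] at h
  simp [ev] at h

end Bk

variable [RiemannianBundle (fun x : M => TangentSpace 𝓘(ℝ, Cm n) x)] [MeasurableSpace M]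
  {μ : Measure M}

open Bk in
theorem bigk (a : B1a n M) (_et : ET n M) (h1 : ALG n μ) (h2 : RAT n μ) : BIGK n μ := by
  rintro p F ⟨A⟩ K _ _ ff
  obtain ⟨x₀, hx₀⟩ := Function.ne_iff.1 A.σ_ne
  have s0 : A.s₀ ≠ 0 := Function.ne_iff.2 ⟨x₀, A.ne₀ x₀ hx₀⟩
  obtain ⟨f₀, f, R, k0, k1, k2, k3, k4, k5⟩ := h1 A.m A.s₀ A.s A.m_pos A.h₀ A.hs s0
  obtain ⟨φ₀, hφ⟩ := h2 p F A K ff f₀ R k0 k4 k5
  have φ0 : φ₀ ≠ 0 := by
    rintro rfl
    exact k2 (funext fun x => (hφ x).2.symm.trans (val_zero ff x))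
  choose z hz using fun i => ff.rat A.m (A.s i) ⟨(A.hs i).1, F.l2 _ A.m_pos _ (A.hs i)⟩ A.s₀
    ⟨A.h₀.1, F.l2 _ A.m_pos _ A.h₀⟩ s0
  refine ⟨φ₀, fun i => z i * φ₀, φ0, fun x => (hφ x).1,
    fun i => mem_all a ff A.h₀.1 s0 (k1 i) fun y hy => ?_, ?_⟩
  · rw [ff.val_mul y _ (hz i y hy).1 _ (hφ y).1, (hz i y hy).2, (hφ y).2, div_mul_eq_mul_div,
      ← k3, mul_div_cancel_right₀ _ hy]
  · simp only [mul_div_cancel_right₀ _ φ0]
    refine algebraicIndependent_iff.2 fun P hP => ?_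
    have hQ : A.Q ≠ 0 := fun e => A.neQ x₀ hx₀ (by rw [e, map_zero])
    refine (mul_eq_zero.1 (MvPolynomial.funext fun ζ => ?_)).resolve_right hQ
    rw [map_mul, map_zero, mul_eq_zero, or_iff_not_imp_right]
    intro hζ
    obtain ⟨t, ht⟩ := exists_root A.monic (A.root x₀ hx₀) ζ
    obtain ⟨x, hx, rfl, -⟩ := A.onto ζ t hζ ht
    rw [← (val_aeval ff (ζ := Phi A.s₀ A.s x) (fun i => hz i x (A.ne₀ x hx)) P).2, hP, val_zero]

end Vale.Agent.P253Y.Big
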