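import Vale.Agent.P253Y.Big.Sk
import Vale.Agent.P299.H720.Montel

/-!
# P253Y, block BIG: the theorem of Montel
-/

open scoped Manifold ContDiff Bundle ENNReal Topology
open Bundle IsManifold MeasureTheory Set Metric Filter Vale.Agent.P253.Mfd
open Vale.Agent.P272.K (Cm Chart)
open Vale.Agent.P253Z

noncomputable section

namespace Vale.Agent.P253Y.Big

variable {n : ℕ} {M : Type} [MetricSpace M] [ChartedSpace (Cm n) M]

/-- the local form -/
theorem lim_loc (a : B1a n M) (p : M) (f : ℕ → M → ℂ) (U : Ultrafilter ℕ)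
    (hf : ∀ ν, IsSec n 0 (f ν)) (hb : ∀ r : ℝ, ∃ C : ℝ, ∀ ν x, dist x p ≤ r → ‖f ν x‖ ≤ C) :
    ∃ g, IsSec n 0 g ∧ TendstoLocallyUniformly f g U := by
  have c : ∀ (s : M → ℂ) (e : Chart n M), co 0 s e = fun z => s (e.symm z) := fun s e =>
    funext fun z => by rw [co, zpow_zero, one_mul]
  have h1 : ∀ x : M, P299.H720.LocBdd (U : Filter ℕ) (fun ν z => f ν ((chartAt (Cm n) x).symm z))
      (chartAt (Cm n) x).target := fun x z hz => by
    set e := chartAt (Cm n) x
    obtain ⟨C, hC⟩ := hb (dist (e.symm z) p + 1)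
    obtain ⟨r, hr, h⟩ := Metric.eventually_nhds_iff_ball.1
      ((e.open_target.eventually_mem hz).and
        ((e.continuousAt_symm hz).eventually_mem (ball_mem_nhds _ one_pos)))
    refine ⟨r, hr, C, Eventually.of_forall fun ν => ⟨fun y hy => ?_, fun y hy => hC ν _ ?_⟩⟩
    · exact (c (f ν) e ▸ hf ν e (a.chart x) y (h y hy).1).differentiableAt.differentiableWithinAt
    · linarith [dist_triangle (e.symm y) (e.symm z) p, mem_ball.1 (h y hy).2]
  choose G g1 g2 g3 using fun x : M =>
    P299.H720.montel_full U (chartAt (Cm n) x).open_target (h1 x)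
  have e1 : ∀ x : M, ∀ z ∈ (chartAt (Cm n) x).target,
      G x z = limUnder (U : Filter ℕ) fun ν => f ν ((chartAt (Cm n) x).symm z) := fun x z hz =>
    (g3 x z hz _ tendsto_const_nhds).limUnder_eq.symm
  refine ⟨fun y => limUnder (U : Filter ℕ) fun ν => f ν y, a.sec_loc _ _ fun x =>
    ⟨_, a.chart x, mem_chart_source _ x, ?_⟩, ?_⟩
  · rw [c]
    exact (P268.analyticAt_of_differentiableOn (chartAt (Cm n) x).open_target (g1 x)
      (mem_chart_target _ x)).congr
      (((chartAt (Cm n) x).open_target.eventually_mem (mem_chart_target _ x)).mono (e1 x))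
  · rw [← tendstoLocallyUniformlyOn_univ, ← iUnion_source_chartAt (Cm n) M]
    refine tendstoLocallyUniformlyOn_iUnion (fun x => (chartAt (Cm n) x).open_source) fun x => ?_
    refine (((g2 x).comp (chartAt (Cm n) x) (chartAt (Cm n) x).mapsTo
      (chartAt (Cm n) x).continuousOn).congr fun ν y hy => ?_).congr_right fun y hy => ?_
    · exact congrArg (f ν) ((chartAt (Cm n) x).left_inv hy)
    · rw [Function.comp, e1 x _ ((chartAt (Cm n) x).map_source hy), (chartAt (Cm n) x).left_inv hy]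

variable [IsManifold 𝓘(ℂ, Cm n) 1 M] [IsManifold 𝓘(ℝ, Cm n) ∞ M]
  [RiemannianBundle (fun x : M => TangentSpace 𝓘(ℝ, Cm n) x)]
  [IsContMDiffRiemannianBundle 𝓘(ℝ, Cm n) ∞ (Cm n) (fun x : M => TangentSpace 𝓘(ℝ, Cm n) x)]
  [IsRiemannianManifold 𝓘(ℝ, Cm n) M] [CompleteSpace M]

/-- **LIM**, without the lemma of Schwarz -/
theorem lim' (a : B1a n M) : LIM n M := fun p f U hf hb => by
  have := properSpace_riemannian (Cm n) M
  obtain ⟨g, h1, h2⟩ := lim_loc a p f U hf hb
  exact ⟨g, h1, fun r => (tendstoLocallyUniformlyOn_iff_tendstoUniformlyOn_of_compact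
    (isCompact_closedBall p r)).1 h2.tendstoLocallyUniformlyOn⟩

/-- **LIM** -/
theorem lim (a : B1a n M) (_h : SCH n M) : LIM n M := lim' a

end Vale.Agent.P253Y.Big
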