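import Vale.Agent.P253Y.Big.Sk
import Vale.Agent.P253Z.ORD

/-!
# P253Y, block BIG: the order of vanishing of a limit
-/

open scoped Manifold ContDiff Bundle ENNReal Topology ComplexConjugate ComplexOrder
open Bundle IsManifold MeasureTheory Set Metric Filter Vale.Agent.P253.Mfd
open Vale.Agent.P272.K (Cm dz dzb cHess jacM Chart)
open Vale.Agent.P253.R2.H618 (gb gb_mono)
open Vale.Agent.P253Z

noncomputable section

namespace Vale.Agent.P253Y.Big

open OrdA

variable {n : ℕ} {M : Type} [MetricSpace M] [ChartedSpace (Cm n) M] [IsManifold 𝓘(ℂ, Cm n) 1 M]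
  [IsManifold 𝓘(ℝ, Cm n) ∞ M] [RiemannianBundle (fun x : M => TangentSpace 𝓘(ℝ, Cm n) x)]
  [IsContMDiffRiemannianBundle 𝓘(ℝ, Cm n) ∞ (Cm n) (fun x : M => TangentSpace 𝓘(ℝ, Cm n) x)]
  [IsRiemannianManifold 𝓘(ℝ, Cm n) M] [CompleteSpace M] [MeasurableSpace M] {μ : Measure M}

theorem orf (a : B1a n M) (h : TC n M) : ORF n μ := by
  intro p F
  have := properSpace_riemannian (Cm n) M
  have hδ := F.δ_pos
  have hC := F.C₂_pos
  have hp := F.e.open_source.mem_nhds F.src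
  have hc := F.e.continuousAt F.src
  rw [ContinuousAt, F.ep] at hc
  obtain ⟨ε, e0, e1, hε⟩ : ∃ ε > (0 : ℝ), ε ≤ 1 ∧ ∀ x, dist x p ≤ ε →
      x ∈ F.e.source ∧ F.e x ∈ ball (0 : Cm n) (F.δ / 3) := by
    obtain ⟨r, r0, hr⟩ := Metric.nhds_basis_closedBall.eventually_iff.1
      (Eventually.and hp (hc.eventually (ball_mem_nhds 0 (by positivity : 0 < F.δ / 3))))
    exact ⟨min r 1, by positivity, min_le_right _ _, fun x hx => hr (hx.trans (min_le_left _ _))⟩
  have g1 : gb (ε ^ 2) ≤ gb ((3 / 2) ^ 2) := gb_mono (by positivity) (by nlinarith)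
  have g2 : gb ((3 / 2) ^ 2) < gb (2 ^ 2) := by
    have := Real.log_le_log (x := (3 / 2) ^ 2) (y := 2 ^ 2) (by norm_num) (by norm_num)
    unfold gb
    linarith
  have g3 := sub_pos.2 (g1.trans_lt g2)
  obtain ⟨θ, hθ⟩ : ∃ θ, θ = 1 - (gb ((3 / 2) ^ 2) - gb (ε ^ 2)) / (gb (2 ^ 2) - gb (ε ^ 2)) :=
    ⟨_, rfl⟩
  have t0 : 0 < θ := by
    rw [hθ, sub_pos, div_lt_one g3]
    exact sub_lt_sub_right g2 _
  have t1 : θ ≤ 1 := hθ ▸ sub_le_self _ (div_nonneg (sub_nonneg.2 g1) g3.le)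
  obtain ⟨C₃, hC₃⟩ := exists_nat_gt ((16 * F.C₂ + 2) / θ)
  rw [div_lt_iff₀ t0] at hC₃
  refine ⟨C₃, fun m hm t f U hU ht hf hl ⟨C, hT⟩ hO => ?_⟩
  by_contra hs0
  have m1 : (1 : ℝ) ≤ m := by exact_mod_cast hm
  obtain ⟨B, hB⟩ : ∃ B, B = (16 * F.C₂ + 2) * m := ⟨_, rfl⟩
  have B0 : 0 < B := by
    rw [hB]
    positivity
  have hk : B < ((C₃ * m : ℕ) : ℝ) * θ := by
    rw [hB]
    push_cast
    nlinarith
  have k0 : (0 : ℝ) < (C₃ * m : ℕ) := (mul_pos_iff_of_pos_right t0).1 (B0.trans hk)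
  have one : ∀ c : ℂ, IsSec n 0 fun _ : M => c := fun c => (a.sec_zero _).2 mdifferentiable_const
  obtain ⟨x₁, hx₁, hmax⟩ := (isCompact_closedBall p (3 / 2)).exists_isMaxOn
    ⟨p, mem_closedBall_self (by norm_num)⟩ ((a.sec_zero _).1 hf).continuous.norm.continuousOn
  obtain ⟨S, hS⟩ : ∃ S, S = ‖f x₁‖ := ⟨_, rfl⟩
  rw [isMaxOn_iff, ← hS] at hmax
  have S0 : 0 < S := not_le.1 fun k => hs0 (a.ident _ f hf p (by
    filter_upwards [closedBall_mem_nhds p (by norm_num : (0 : ℝ) < 3 / 2)] with y hy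
    exact norm_le_zero_iff.1 ((hmax y hy).trans k)))
  obtain ⟨ν, ⟨hν, hν'⟩, hd⟩ := ((((F.A_top.eventually_ge_atTop
    ((C - Real.log (2 * S)) / (F.C₂ * m))).and (F.A_top.eventually_ge_atTop 0)).filter_mono
      hU).and (Metric.tendstoUniformlyOn_iff.1 hl S S0)).exists
  rw [div_le_iff₀ (by positivity)] at hν
  have sc : ∀ (u : M → ℂ) (c : ℝ), IsSec n 0 u → 0 < c → ∃ g : M → ℂ, IsSec n 0 g ∧
      (∀ x, g x = ((c⁻¹ : ℝ) : ℂ) * u x) ∧ ∀ x, ‖g x‖ = ‖u x‖ / c := fun u c hu h0 =>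
    ⟨_, a.sec_mul 0 0 _ _ (one ((c⁻¹ : ℝ) : ℂ)) hu, fun _ => rfl, fun x => by
      rw [Pi.mul_apply, norm_mul, Complex.norm_real, Real.norm_of_nonneg (inv_pos.2 h0).le,
        div_eq_inv_mul]⟩
  obtain ⟨g, sg, hg, ng⟩ := sc f S hf S0
  obtain ⟨g', sg', -, ng'⟩ := sc (t ν) (2 * S) (ht ν) (by positivity)
  have hd' : ∀ x, dist x p ≤ 2 → |‖f x‖ - ‖t ν x‖| ≤ S := fun x hx =>
    (abs_norm_sub_norm_le _ _).trans (dist_eq_norm (f x) _ ▸ (hd x hx).le)
  have b2 : ∀ x, dist x p ≤ 2 → ‖g x‖ ≤ Real.exp B := fun x hx => by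
    have := F.dom ν _ (4 * F.C₂ * m) (a.psh g' sg' 1 one_pos)
      (fun x => Real.log_nonneg (le_max_right _ _))
      (fun x hx => by
        rw [max_eq_right (ng' x ▸ (div_le_one (by positivity)).2 (by
          linarith [hmax x hx, (abs_le.1 (hd' x (le_trans hx (by norm_num)))).1])), Real.log_one])
      (by positivity) (fun x => by
        have t : 0 ≤ tl p (F.R ν) x := le_max_right _ _
        have u := mul_nonneg (by positivity : 0 ≤ F.C₂ * m) t
        have v := mul_nonneg (by positivity : 0 ≤ F.C₂ * m) hν'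
        rw [← Real.exp_zero]
        refine log_max_le ?_ (by linarith)
        rw [ng', div_le_iff₀ (by positivity)]
        refine (hT ν x).trans ?_
        rw [← Real.exp_log (show 0 < 2 * S by positivity), ← Real.exp_add]
        exact Real.exp_le_exp.2 (by linarith)) x hx
    rw [Real.log_le_iff_le_exp (one_pos.trans_le (le_max_right _ _)), max_le_iff, ng',
      div_le_iff₀ (by positivity)] at this
    have k1 : Real.exp (4 * (4 * F.C₂ * m)) * 3 ≤ Real.exp B := by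
      refine (mul_le_mul_of_nonneg_left (show (3 : ℝ) ≤ Real.exp 2 by
        linarith [Real.add_one_le_exp 2]) (Real.exp_pos _).le).trans ?_
      rw [← Real.exp_add, hB]
      exact Real.exp_le_exp.2 (by linarith)
    rw [ng, div_le_iff₀ S0]
    nlinarith [(abs_le.1 (hd' x hx)).2, this.1, this.2]
  have b1 : ∀ x, dist x p ≤ ε → ‖g x‖ ≤ Real.exp (B - (C₃ * m : ℕ)) := fun x hx => by
    rw [← F.e.left_inv (hε x hx).1]
    refine schwarz (G := fun z => g (F.e.symm z)) hδ (fun z hz => ?_)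
      (fun z hz => b2 _ ((F.near z (ball_subset_closedBall hz)).trans one_le_two))
      (by exact_mod_cast k0) ?_ (hε x hx).2
    · have := (sg F.e F.he z (F.sub (ball_subset_closedBall hz))).differentiableAt
      unfold co at this
      simpa using this.differentiableWithinAt
    · simp only [hg]
      exact hO.const_mul_left _
  have n1 : ‖g x₁‖ = 1 := by rw [ng, ← hS, div_self S0.ne']
  rcases le_total (dist x₁ p) ε with h1 | h1
  · have := b1 x₁ h1
    rw [n1, Real.one_le_exp_iff] at this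
    nlinarith
  · have h2 := h p _ ε 2 (B - (C₃ * m : ℕ)) B
      (a.psh g sg _ (Real.exp_pos (B - (C₃ * m : ℕ)))) e0 (by linarith) (by linarith)
      (fun x hx => log_max_le (b1 x hx.le) le_rfl)
      (fun x hx => log_max_le (b2 x hx.le) (by linarith)) x₁ h1
      ((mem_closedBall.1 hx₁).trans (by norm_num))
    have h3 : (gb (dist x₁ p ^ 2) - gb (ε ^ 2)) / (gb (2 ^ 2) - gb (ε ^ 2)) ≤ 1 - θ := by
      rw [hθ, sub_sub_cancel]
      exact div_le_div_of_nonneg_right (sub_le_sub_right (gb_mono (pow_pos (e0.trans_le h1) 2)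
        (pow_le_pow_left₀ dist_nonneg hx₁ 2)) _) g3.le
    have h4 := Real.log_nonneg (n1.ge.trans (le_max_left _ (Real.exp (B - (C₃ * m : ℕ)))))
    nlinarith

end Vale.Agent.P253Y.Big
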