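import Vale.Agent.P253Z.T2.Alg

/-!
# P253Y, block BIG: holomorphic functions in the field of ratios. Statements.
-/

open scoped Manifold ContDiff Bundle ENNReal Topology
open Bundle IsManifold MeasureTheory Set Metric Filter Vale.Agent.P253.Mfd
open Vale.Agent.P272.K (Cm Chart)
open Vale.Agent.P253Z Vale.Agent.P253Z.T2

noncomputable section

namespace Vale.Agent.P253Y.Big

open VS (ev)

variable {n : ℕ} {M : Type} [MetricSpace M] [ChartedSpace (Cm n) M]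

variable (n M) in
/-- **LIM**: the theorem of Montel -/
def LIM : Prop :=
  ∀ (p : M) (f : ℕ → M → ℂ) (U : Ultrafilter ℕ), (∀ ν, IsSec n 0 (f ν)) →
    (∀ r : ℝ, ∃ C : ℝ, ∀ ν x, dist x p ≤ r → ‖f ν x‖ ≤ C) →
    ∃ g, IsSec n 0 g ∧ ∀ r : ℝ, TendstoUniformlyOn f g U (closedBall p r)

variable [RiemannianBundle (fun x : M => TangentSpace 𝓘(ℝ, Cm n) x)] [MeasurableSpace M]

variable (n) in
/-- **FR3**: a frame that is locally bounded -/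
def FR3 (μ : Measure M) : Prop :=
  ∀ p : M, ∃ F : Fr n μ p, (∀ ν, 0 ≤ F.A ν) ∧ ∀ m : ℕ, 1 ≤ m → ∀ s, InH n μ m s → ∀ r : ℝ,
    ∃ C : ℝ, ∀ ν x, dist x p ≤ r → ‖s x * F.Ω ν x ^ m‖ ≤ C

variable (n) in
/-- **ORF**: the order of vanishing of a limit of functions below the gauge -/
def ORF (μ : Measure M) : Prop :=
  ∀ (p : M) (F : Fr n μ p), ∃ C₃ : ℕ, ∀ l : ℕ, 1 ≤ l → ∀ (t : ℕ → M → ℂ) (g : M → ℂ)
    (U : Ultrafilter ℕ), (U : Filter ℕ) ≤ atTop → (∀ ν, IsSec n 0 (t ν)) → IsSec n 0 g →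
    TendstoUniformlyOn t g U (closedBall p 2) →
    (∃ C : ℝ, ∀ ν x, ‖t ν x‖ ≤ Real.exp (C + F.C₂ * l * (F.A ν + tl p (F.R ν) x))) →
    ((fun z => g (F.e.symm z)) =O[𝓝 0] fun z => ‖z‖ ^ (C₃ * l)) → g = 0

variable (n) in
/-- **ALG**: an algebraic holomorphic function that clears the poles -/
def ALG (μ : Measure M) : Prop :=
  ∀ (m : ℕ) (s₀ : M → ℂ) (s : Fin n → M → ℂ), 1 ≤ m → InH n μ m s₀ → (∀ i, InH n μ m (s i)) →
    s₀ ≠ 0 → ∃ (f₀ : M → ℂ) (f : Fin n → M → ℂ) (R : Polynomial (Pz n)), IsSec n 0 f₀ ∧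
      (∀ i, IsSec n 0 (f i)) ∧ f₀ ≠ 0 ∧ (∀ i x, f i x * s₀ x = s i x * f₀ x) ∧ R ≠ 0 ∧
      ∀ x, s₀ x ≠ 0 → ev R (Phi s₀ s x) (f₀ x) = 0

variable (n) in
/-- **RAT**: an algebraic holomorphic function lies in the field -/
def RAT (μ : Measure M) : Prop :=
  ∀ (p : M) (F : Fr n μ p) (A : Aff F) (K : Type) [Field K] [Algebra ℂ K] (ff : FF n F.Tame K)
    (f : M → ℂ) (R : Polynomial (Pz n)), IsSec n 0 f → R ≠ 0 →
    (∀ x, A.s₀ x ≠ 0 → ev R (Phi A.s₀ A.s x) (f x) = 0) →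
    ∃ φ : K, ∀ x, φ ∈ ff.O x ∧ ff.val φ x = f x

variable (n) in
/-- **BIGK**: the elements of the field that are holomorphic everywhere have the full
transcendence degree -/
def BIGK (μ : Measure M) : Prop :=
  ∀ (p : M) (F : Fr n μ p), Nonempty (Aff F) → ∀ (K : Type) [Field K] [Algebra ℂ K]
    (ff : FF n F.Tame K), ∃ (φ₀ : K) (φ : Fin n → K), φ₀ ≠ 0 ∧ (∀ x, φ₀ ∈ ff.O x) ∧
      (∀ i x, φ i ∈ ff.O x) ∧ AlgebraicIndependent ℂ fun i => φ i / φ₀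

end Vale.Agent.P253Y.Big
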